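import Vale.Agent.P167Z.Bridge
import Vale.Agent.P167.H72.Lit.Exi

/-!
# P167: counterclockwise parametrizations and lattice approximations of Jordan domains
-/

namespace Vale.Agent.P167Z

open Set Topology Metric Filter Bornology
open Vale.Agent.P167.H72
open Vale.Agent.P167.H634.Apx (Pos pos_or approx_of_pos cj FC_cj dom_cj)
open Vale.Agent.P153.R2.R1 (DC FC)

variable {β : ℝ → ℂ} {D : Set ℂ} {a b : ℂ} {Φ : ℂ ≃ₜ ℂ}

theorem FC_conj (Φ : ℂ ≃ₜ ℂ) (t : ℝ) :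
    FC (Lit.conj Φ) t = Lit.bdry Φ (t / (2 * Real.pi)) := Lit.toC_conj_circ Φ t

theorem DC_conj (Φ : ℂ ≃ₜ ℂ) : DC (Lit.conj Φ) = Φ '' ball 0 1 := Lit.dom_conj Φ

theorem mem_scale {t : ℝ} (ht : t ∈ Icc (0 : ℝ) 1) : 2 * Real.pi * t ∈ Icc 0 (2 * Real.pi) := by
  have hπ := Real.pi_pos
  exact ⟨by nlinarith [ht.1], by nlinarith [ht.2]⟩

theorem mem_scale' {t : ℝ} (ht : t ∈ Icc 0 (2 * Real.pi)) :
    t / (2 * Real.pi) ∈ Icc (0 : ℝ) 1 := by
  have hπ := Real.pi_pos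
  exact ⟨div_nonneg ht.1 (by positivity), (div_le_one (by positivity)).2 ht.2⟩

/-- A counterclockwise parametrization is positive. -/
theorem pos_of_param (h : IsParam D a b β) (h1 : Φ '' ball 0 1 = D)
    (h2 : ∀ t ∈ Icc (0 : ℝ) 1, Lit.bdry Φ t = β t) : Pos (Lit.conj Φ) := by
  have hπ := Real.pi_pos
  obtain ⟨-, -, -, -, z, hz, θ, g1, g2, g3⟩ := h
  refine ⟨z, by rw [DC_conj, h1]; exact hz, fun t => θ (t / (2 * Real.pi)), ?_, ?_, ?_⟩
  · exact g1.comp (by fun_prop) fun t ht => mem_scale' ht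
  · intro t ht
    rw [g2 _ (mem_scale' ht), FC_conj, h2 _ (mem_scale' ht)]
  · have e : 2 * Real.pi / (2 * Real.pi) = 1 := by field_simp
    simp only [e, zero_div, g3]

/-- The winding condition for a curve which is a rescaling of the boundary of a positive domain. -/
theorem wind_of_pos {Ψ : (ℝ × ℝ) ≃ₜ (ℝ × ℝ)} (h : Pos Ψ) (h1 : DC Ψ = D)
    (h2 : ∀ t ∈ Icc (0 : ℝ) 1, FC Ψ (2 * Real.pi * t) = β t) :
    ∃ z ∈ D, ∃ θ : ℝ → ℂ, ContinuousOn θ (Icc 0 1) ∧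
      (∀ t ∈ Icc (0 : ℝ) 1, Complex.exp (θ t) = β t - z) ∧
      θ 1 - θ 0 = 2 * Real.pi * Complex.I := by
  obtain ⟨z, hz, θ, g1, g2, g3⟩ := h
  refine ⟨z, h1 ▸ hz, fun t => θ (2 * Real.pi * t), ?_, ?_, ?_⟩
  · exact g1.comp (by fun_prop) fun t ht => mem_scale ht
  · intro t ht
    rw [g2 _ (mem_scale ht), h2 t ht]
  · simp only [mul_one, mul_zero, g3]

theorem IsSimpleClosed.rev (h : IsSimpleClosed β) : IsSimpleClosed fun t => β (1 - t) := by
  have hm : ∀ t ∈ Icc (0 : ℝ) 1, 1 - t ∈ Icc (0 : ℝ) 1 := fun t ht =>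
    ⟨by linarith [ht.2], by linarith [ht.1]⟩
  refine ⟨h.1.comp (by fun_prop) hm, fun x hx y hy he => ?_, ?_⟩
  · have hJ := h.jcurve
    have he' : β (Int.fract (1 - x)) = β (Int.fract (1 - y)) := by
      rw [h.fract_eq (hm x ⟨hx.1, hx.2.le⟩), h.fract_eq (hm y ⟨hy.1, hy.2.le⟩)]
      exact he
    obtain ⟨k, hk⟩ := hJ.inj _ _ he'
    have k1 : (k : ℝ) < 1 := by linarith [hx.1, hy.2]
    have k2 : (-1 : ℝ) < k := by linarith [hx.2, hy.1]
    have k1' : k < 1 := by exact_mod_cast k1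
    have k2' : -1 < k := by exact_mod_cast k2
    have k0 : k = 0 := by omega
    rw [k0] at hk
    push_cast at hk
    linarith
  · simp only [sub_self, sub_zero, h.2.2]

theorem image_rev (β : ℝ → ℂ) : (fun t => β (1 - t)) '' Icc 0 1 = β '' Icc 0 1 := by
  apply Subset.antisymm
  · rintro _ ⟨t, ht, rfl⟩
    exact ⟨1 - t, ⟨by linarith [ht.2], by linarith [ht.1]⟩, rfl⟩
  · rintro _ ⟨t, ht, rfl⟩
    exact ⟨1 - t, ⟨by linarith [ht.2], by linarith [ht.1]⟩, by simp only [sub_sub_cancel]⟩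

theorem bdry_neg (Φ : ℂ ≃ₜ ℂ) (t : ℝ) : Lit.bdry Φ (-t) = Lit.bdry Φ (1 - t) := by
  unfold Lit.bdry
  have e : (2 * Real.pi * ((1 - t : ℝ) : ℂ) * Complex.I : ℂ) =
      2 * Real.pi * ((-t : ℝ) : ℂ) * Complex.I + 2 * Real.pi * Complex.I := by
    push_cast
    ring
  rw [e, Complex.exp_add, Complex.exp_two_pi_mul_I, mul_one]

/-- **Counterclockwise parametrizations and approximations exist.** -/
theorem hasApproximations (hD : IsJordanDomain D) (ha : a ∈ frontier D) (hb : b ∈ frontier D)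
    (hab : a ≠ b) : HasApproximations D a b := by
  have hπ := Real.pi_pos
  constructor
  · obtain ⟨β, Φ, g1, g2, g3, g4, e1, e2, -, -⟩ := exists_marked hD ha hb hab
    have hs : ∀ t : ℝ, 2 * Real.pi * t / (2 * Real.pi) = t := fun t => by field_simp
    rcases pos_or (Lit.conj Φ) with h | h
    · refine ⟨β, g1, g2, g3, g4, wind_of_pos h ((DC_conj Φ).trans e1) fun t ht => ?_⟩
      rw [FC_conj, hs, e2 t ht]
    · refine ⟨fun t => β (1 - t), g1.rev, g2.trans (image_rev β).symm, ?_, ?_,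
        wind_of_pos h ?_ fun t ht => ?_⟩
      · simp only [sub_zero, g1.2.2, g3]
      · rw [← g4]
        norm_num
      · rw [← e1, ← DC_conj]
        unfold DC
        rw [dom_cj]
      · rw [FC_cj, FC_conj, neg_div, hs, bdry_neg,
          e2 _ ⟨by linarith [ht.2], by linarith [ht.1]⟩]
  · intro β hβ δ hδ hδ0
    obtain ⟨Φ, f1, f2, -, -⟩ := exists_homeo hβ.1 hD.1 hD.2.1 hD.2.2.1 hβ.2.1
    obtain ⟨N, k, p, S, H⟩ := approx_of_pos (pos_of_param hβ f1 f2) hδ hδ0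
    obtain ⟨Dn, h1, h2⟩ := Lit.exists_seq (Φ := Φ) (N := N) (k := k) (p := p) (S := S) H
    exact ⟨Dn, h1, (approx_iff f2 Dn).2 h2⟩

end Vale.Agent.P167Z
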