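import Vale.Agent.P167Z.Curve

/-!
# P167: from plane homeomorphisms to Jordan domains
-/

universe u

namespace Vale.Agent.P167Z

open Set Topology Metric Filter Bornology
open Vale.Agent.P167.H72

variable {β : ℝ → ℂ} {D : Set ℂ} {a b : ℂ} {Φ : ℂ ≃ₜ ℂ}

theorem unif_iff (h1 : Φ '' ball 0 1 = D) (h2 : Φ 1 = a) (h3 : Φ (-1) = b) (ψ : ℂ → ℂ) :
    IsUniformizer D a b ψ ↔ Lit.IsUniformizer Φ ψ := by
  unfold IsUniformizer Lit.IsUniformizer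
  rw [h1, h2, h3]

theorem sleIn_iff (h2 : Φ 1 = a) (h3 : Φ (-1) = b) {Ω : Type*} [MeasurableSpace Ω]
    (P : MeasureTheory.Measure Ω) (γ : Ω → ℝ → ℂ) (ψ : ℂ → ℂ) (G : Ω → C(unitInterval, ℂ)) :
    IsSLEIn P γ a b ψ G ↔ Lit.IsSLEIn P γ Φ ψ G := by
  unfold IsSLEIn Lit.IsSLEIn
  rw [h2, h3]

theorem approx_iff (h : ∀ t ∈ Icc (0 : ℝ) 1, Lit.bdry Φ t = β t) (Dn : ℕ → Lit.Discrete) :
    Approximates Dn β ↔ Lit.Approximates Dn Φ := by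
  unfold Approximates Lit.Approximates
  refine and_congr_right fun _ => ⟨fun H => H.congr_right ?_, fun H => H.congr_right ?_⟩
  · exact fun t ht => (h t ht).symm
  · exact fun t ht => h t ht

theorem convU_of (h : ∀ t ∈ Icc (0 : ℝ) 1, Lit.bdry Φ t = β t) {q : ℝ} {Ω : Type*}
    [MeasurableSpace Ω] {P : MeasureTheory.Measure Ω} {G : Ω → C(unitInterval, ℂ)}
    (H : Lit.ConvergesUniformly q Φ P G) : ConvergesUniformly q β P G := by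
  intro F hF ε hε
  obtain ⟨r, hr, H'⟩ := H F hF ε hε
  exact ⟨r, hr, fun D' h1 h2 => H' D' h1 fun t ht => by rw [h t ht]; exact h2 t ht⟩

/-- A marked Jordan domain is the image of the disc with the points `1`, `-1`. -/
theorem exists_marked (hD : IsJordanDomain D) (ha : a ∈ frontier D) (hb : b ∈ frontier D)
    (hab : a ≠ b) : ∃ β : ℝ → ℂ, ∃ Φ : ℂ ≃ₜ ℂ, IsSimpleClosed β ∧ frontier D = β '' Icc 0 1 ∧
      β 0 = a ∧ β (1 / 2) = b ∧ Φ '' ball 0 1 = D ∧ (∀ t ∈ Icc (0 : ℝ) 1, Lit.bdry Φ t = β t) ∧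
      Φ 1 = a ∧ Φ (-1) = b := by
  obtain ⟨h1, h2, h3, β₀, h4, h5⟩ := hD
  obtain ⟨β, g1, g2, g3, g4⟩ := exists_param h4 (h5 ▸ ha) (h5 ▸ hb) hab
  obtain ⟨Φ, e1, e2, e3, e4⟩ := exists_homeo g1 h1 h2 h3 (h5.trans g2.symm)
  exact ⟨β, Φ, g1, h5.trans g2.symm, g3, g4, e1, e2, e3.trans g3, e4.trans g4⟩

/-- **Q1 for Jordan domains** from Q1 for images of the disc. -/
theorem question_of {q : ℝ} (H : Lit.Question.{u} q) : Question.{u} q := by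
  refine ⟨H.1, fun Ω _ P _ γ hγ D hD a ha b hb hab => ?_⟩
  obtain ⟨β₀, Φ, -, -, -, -, e1, -, e3, e4⟩ := exists_marked hD ha hb hab
  obtain ⟨⟨ψ₀, hψ₀⟩, H1⟩ := H.2 Ω P γ hγ Φ
  refine ⟨⟨ψ₀, (unif_iff e1 e3 e4 ψ₀).2 hψ₀⟩, fun ψ hψ => ?_⟩
  obtain ⟨⟨G₀, hG₀⟩, H2⟩ := H1 ψ ((unif_iff e1 e3 e4 ψ).1 hψ)
  refine ⟨⟨G₀, (sleIn_iff e3 e4 P γ ψ G₀).2 hG₀⟩, fun G hG => ?_⟩
  refine ⟨(H2 G ((sleIn_iff e3 e4 P γ ψ G).1 hG)).1, fun β hβ => ?_⟩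
  obtain ⟨g1, g2, g3, g4, -⟩ := hβ
  obtain ⟨Ψ, f1, f2, f3, f4⟩ := exists_homeo g1 hD.1 hD.2.1 hD.2.2.1 g2
  have f3' := f3.trans g3
  have f4' := f4.trans g4
  obtain ⟨-, H3, H4⟩ := ((H.2 Ω P γ hγ Ψ).2 ψ ((unif_iff f1 f3' f4' ψ).1 hψ)).2 G
    ((sleIn_iff f3' f4' P γ ψ G).1 hG)
  exact ⟨fun Dn hDn => H3 Dn ((approx_iff f2 Dn).1 hDn), convU_of f2 H4⟩

end Vale.Agent.P167Z
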