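import Vale.Agent.P167Z.Defs
import Vale.Agent.P148.R2.H771.Sch3

/-!
# P167: parametrized Jordan curves and homeomorphisms of the plane

* `exists_homeo`: a parametrized boundary curve of a bounded domain is `t ↦ Φ (e^{2πit})` for a
  homeomorphism `Φ` of the plane which takes the disc to the domain (theorem of Schoenflies);
* `exists_param`: two distinct boundary points are at the parameters `0` and `1/2` of some
  parametrization.
-/

namespace Vale.Agent.P167Z

open Set Topology Metric Filter Bornology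
open Vale.Agent.P153.R2.R1 (JCurve)
open Vale.Agent.P167.H72.Lit (bdry)

variable {β : ℝ → ℂ} {D : Set ℂ}

theorem IsSimpleClosed.fract_eq (h : IsSimpleClosed β) {t : ℝ} (ht : t ∈ Icc (0 : ℝ) 1) :
    β (Int.fract t) = β t := by
  rcases ht.2.lt_or_eq with h1 | rfl
  · rw [Int.fract_eq_self.2 ⟨ht.1, h1⟩]
  · rw [Int.fract_one, h.2.2]

/-- The periodic extension of a simple closed curve. -/
theorem IsSimpleClosed.jcurve (h : IsSimpleClosed β) : JCurve (fun t => β (Int.fract t)) 1 where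
  pos := one_pos
  cont := h.1.comp_fract'' h.2.2.symm
  per x := by rw [Int.fract_add_one]
  inj x y he := by
    have h1 := h.2.1 ⟨Int.fract_nonneg x, Int.fract_lt_one x⟩
      ⟨Int.fract_nonneg y, Int.fract_lt_one y⟩ he
    obtain ⟨k, hk⟩ := Int.fract_eq_fract.1 h1
    exact ⟨k, by linarith⟩

theorem range_fract (β : ℝ → ℂ) (h : β 1 = β 0) :
    range (fun t : ℝ => β (Int.fract t)) = β '' Icc 0 1 := by
  apply Subset.antisymm
  · rintro _ ⟨t, rfl⟩
    exact ⟨_, ⟨Int.fract_nonneg t, (Int.fract_lt_one t).le⟩, rfl⟩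
  · rintro _ ⟨t, ht, rfl⟩
    refine ⟨t, ?_⟩
    rcases ht.2.lt_or_eq with h1 | rfl
    · simp only [Int.fract_eq_self.2 ⟨ht.1, h1⟩]
    · simp only [Int.fract_one, h]

/-- The theorem of Schoenflies for a periodic parametrization. -/
theorem exists_homeo_per {γ : ℝ → ℂ} (h : JCurve γ 1) (hD : IsOpen D) (hc : IsConnected D)
    (hb : IsBounded D) (hf : frontier D = range γ) :
    ∃ Φ : ℂ ≃ₜ ℂ, Φ '' ball 0 1 = D ∧ ∀ t : ℝ, bdry Φ t = γ t := by
  have hπ := Real.pi_pos
  obtain ⟨H, hH1, hH2⟩ := P148.R2.H771.schoenflies h hD hc hb hf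
  obtain ⟨Ψ, h1, h2⟩ := P148.R2.H771.exists_radial
    (b := fun t : ℝ => H.symm (γ (t / (2 * Real.pi))))
    (H.symm.continuous.comp (h.cont.comp (by fun_prop))) (fun t => by
      have e : (t + 2 * Real.pi) / (2 * Real.pi) = t / (2 * Real.pi) + 1 := by
        field_simp
      rw [e, h.per]) (fun s t he => by
      obtain ⟨k, hk⟩ := h.inj _ _ (H.symm.injective he)
      refine ⟨k, ?_⟩
      field_simp at hk
      linarith) (by
      have e : range (fun t : ℝ => H.symm (γ (t / (2 * Real.pi)))) = H.symm '' range γ := by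
        apply Subset.antisymm
        · rintro _ ⟨t, rfl⟩
          exact ⟨_, ⟨_, rfl⟩, rfl⟩
        · rintro _ ⟨_, ⟨t, rfl⟩, rfl⟩
          refine ⟨t * (2 * Real.pi), ?_⟩
          have e : t * (2 * Real.pi) / (2 * Real.pi) = t := by field_simp
          simp only [e]
      rw [e, ← hH2, image_image]
      simp only [Homeomorph.symm_apply_apply, image_id'])
  refine ⟨Ψ.trans H, ?_, fun t => ?_⟩
  · have e3 : Ψ '' ball 0 1 = ball 0 1 := by
      apply Subset.antisymm
      · rintro _ ⟨z, hz, rfl⟩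
        rw [mem_ball_zero_iff, h1]
        exact mem_ball_zero_iff.1 hz
      · intro z hz
        refine ⟨Ψ.symm z, ?_, Ψ.apply_symm_apply z⟩
        rw [mem_ball_zero_iff, ← h1, Ψ.apply_symm_apply]
        exact mem_ball_zero_iff.1 hz
    show (fun z => H (Ψ z)) '' _ = D
    rw [← hH1, ← image_image, e3]
  · show H (Ψ (Complex.exp (2 * Real.pi * t * Complex.I))) = γ t
    have e : (2 * Real.pi * t * Complex.I : ℂ) = ((2 * Real.pi * t : ℝ) : ℂ) * Complex.I := by
      push_cast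
      ring
    have e' : 2 * Real.pi * t / (2 * Real.pi) = t := by field_simp
    rw [e, h2, H.apply_symm_apply, e']

theorem bdry_zero (Φ : ℂ ≃ₜ ℂ) : bdry Φ 0 = Φ 1 := by
  simp [bdry]

theorem bdry_half (Φ : ℂ ≃ₜ ℂ) : bdry Φ (1 / 2) = Φ (-1) := by
  have e : (2 * Real.pi * ((1 / 2 : ℝ) : ℂ) * Complex.I : ℂ) = Real.pi * Complex.I := by
    push_cast
    ring
  rw [bdry, e, Complex.exp_pi_mul_I]

/-- **The theorem of Schoenflies for a parametrized boundary curve.** -/
theorem exists_homeo (h : IsSimpleClosed β) (hD : IsOpen D) (hc : IsConnected D)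
    (hb : IsBounded D) (hf : frontier D = β '' Icc 0 1) :
    ∃ Φ : ℂ ≃ₜ ℂ, Φ '' ball 0 1 = D ∧ (∀ t ∈ Icc (0 : ℝ) 1, bdry Φ t = β t) ∧
      Φ 1 = β 0 ∧ Φ (-1) = β (1 / 2) := by
  obtain ⟨Φ, h1, h2⟩ := exists_homeo_per h.jcurve hD hc hb (by rw [range_fract β h.2.2, hf])
  have h3 : ∀ t ∈ Icc (0 : ℝ) 1, bdry Φ t = β t := fun t ht => by rw [h2, h.fract_eq ht]
  refine ⟨Φ, h1, h3, ?_, ?_⟩
  · rw [← bdry_zero, h3 0 ⟨le_rfl, zero_le_one⟩]
  · rw [← bdry_half, h3 _ ⟨by norm_num, by norm_num⟩]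

/-- The piecewise linear change of time with `0 ↦ 0`, `1/2 ↦ r`, `1 ↦ 1`. -/
noncomputable def tc (r t : ℝ) : ℝ := 2 * r * min t (1 / 2) + 2 * (1 - r) * (max t (1 / 2) - 1 / 2)

theorem continuous_tc (r : ℝ) : Continuous (tc r) := by
  unfold tc
  fun_prop

theorem tc_zero (r : ℝ) : tc r 0 = 0 := by
  unfold tc
  rw [min_eq_left (by norm_num), max_eq_right (by norm_num)]
  ring

theorem tc_half (r : ℝ) : tc r (1 / 2) = r := by
  unfold tc
  rw [min_self, max_self]
  ring

theorem tc_one (r : ℝ) : tc r 1 = 1 := by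
  unfold tc
  rw [min_eq_right (by norm_num), max_eq_left (by norm_num)]
  ring

theorem strictMono_tc {r : ℝ} (h0 : 0 < r) (h1 : r < 1) : StrictMono (tc r) := by
  intro s t hst
  unfold tc
  have h2 : 0 < 1 - r := by linarith
  rcases le_total s (1 / 2) with hs | hs <;> rcases le_total t (1 / 2) with ht | ht
  · rw [min_eq_left hs, min_eq_left ht, max_eq_right hs, max_eq_right ht]
    nlinarith
  · rw [min_eq_left hs, min_eq_right ht, max_eq_right hs, max_eq_left ht]
    rcases hs.lt_or_eq with hs' | hs'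
    · nlinarith [mul_nonneg h2.le (sub_nonneg.2 ht), mul_pos h0 (sub_pos.2 hs')]
    · nlinarith [mul_pos h2 (sub_pos.2 (hs' ▸ hst : 1 / 2 < t))]
  · linarith
  · rw [min_eq_right hs, min_eq_right ht, max_eq_left hs, max_eq_left ht]
    nlinarith

/-- Two distinct points of a simple closed curve are at the parameters `0` and `1/2` of some
parametrization. -/
theorem exists_param (h : IsSimpleClosed β) {a b : ℂ} (ha : a ∈ β '' Icc 0 1)
    (hb : b ∈ β '' Icc 0 1) (hab : a ≠ b) :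
    ∃ β', IsSimpleClosed β' ∧ β' '' Icc 0 1 = β '' Icc 0 1 ∧ β' 0 = a ∧ β' (1 / 2) = b := by
  have hJ := h.jcurve
  rw [← range_fract β h.2.2] at ha hb ⊢
  obtain ⟨γ, hγ⟩ : ∃ γ, γ = fun t : ℝ => β (Int.fract t) := ⟨_, rfl⟩
  rw [← hγ] at ha hb hJ ⊢
  obtain ⟨s, rfl⟩ := ha
  obtain ⟨s', rfl⟩ := hb
  have hper : ∀ x, γ (s + Int.fract (x - s)) = γ x := fun x => by
    have e : s + Int.fract (x - s) = x + ((-⌊x - s⌋ : ℤ) : ℝ) * 1 := by
      rw [Int.fract]
      push_cast
      ring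
    rw [e, P153.R2.R1.per_int hJ.per]
  obtain ⟨r, hr⟩ : ∃ r, r = Int.fract (s' - s) := ⟨_, rfl⟩
  have hr1 : r < 1 := hr ▸ Int.fract_lt_one _
  have hr0 : 0 < r := by
    refine lt_of_le_of_ne (hr ▸ Int.fract_nonneg _) fun h0 => hab ?_
    rw [← hper s', ← hr, ← h0, add_zero]
  have hm := strictMono_tc hr0 hr1
  refine ⟨fun t => γ (s + tc r t), ⟨?_, ?_, ?_⟩, ?_, ?_, ?_⟩
  · exact (hJ.cont.comp (continuous_const.add (continuous_tc r))).continuousOn
  · intro x hx y hy he
    obtain ⟨k, hk⟩ := hJ.inj _ _ he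
    have hx0 : 0 ≤ tc r x := tc_zero r ▸ hm.monotone hx.1
    have hx1 : tc r x < 1 := tc_one r ▸ hm hx.2
    have hy0 : 0 ≤ tc r y := tc_zero r ▸ hm.monotone hy.1
    have hy1 : tc r y < 1 := tc_one r ▸ hm hy.2
    have k1 : (k : ℝ) < 1 := by linarith
    have k2 : (-1 : ℝ) < k := by linarith
    have k1' : k < 1 := by exact_mod_cast k1
    have k2' : -1 < k := by exact_mod_cast k2
    have k0 : k = 0 := by omega
    rw [k0] at hk
    exact hm.injective (by simpa using hk)
  · simp only [tc_one, tc_zero, add_zero, hJ.per]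
  · apply Subset.antisymm
    · rintro _ ⟨t, -, rfl⟩
      exact ⟨_, rfl⟩
    · rintro _ ⟨x, rfl⟩
      have hI : Int.fract (x - s) ∈ Icc (tc r 0) (tc r 1) := by
        rw [tc_zero, tc_one]
        exact ⟨Int.fract_nonneg _, (Int.fract_lt_one _).le⟩
      obtain ⟨t, ht, he⟩ := intermediate_value_Icc zero_le_one (continuous_tc r).continuousOn hI
      exact ⟨t, ht, by simp only [he, hper]⟩
  · simp only [tc_zero, add_zero]
  · simp only [tc_half, hr, hper]

end Vale.Agent.P167Z
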