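import Vale.Agent.P167.H72.Lit.Defs

/-!
# P167, Q1 for Jordan domains given by their boundary curves

The lattice domains, the random-cluster measure, the interface, the metric `d` and chordal SLE in the
upper half-plane are those of `Vale.Agent.P167.H72.Lit.Defs`. Here the limit domain is any bounded
domain of the plane whose boundary is a simple closed curve, with any two distinct boundary points
and any counterclockwise parametrization of the boundary.
-/

universe u

namespace Vale.Agent.P167Z

open MeasureTheory ProbabilityTheory Filter Topology Set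
open Vale.Agent.P167.H72.Lit
  (Discrete IsInterface mean IsSLE kappa BoundedContinuous ConvergesInLaw)

/-- `β`, on `[0,1]`, is a simple closed curve: continuous, injective on `[0,1)`, closed. -/
def IsSimpleClosed (β : ℝ → ℂ) : Prop :=
  ContinuousOn β (Icc 0 1) ∧ InjOn β (Ico 0 1) ∧ β 1 = β 0

/-- `D` is a bounded Jordan domain: a bounded connected open set whose boundary is a simple closed
curve. -/
def IsJordanDomain (D : Set ℂ) : Prop :=
  IsOpen D ∧ IsConnected D ∧ Bornology.IsBounded D ∧
    ∃ β, IsSimpleClosed β ∧ frontier D = β '' Icc 0 1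

/-- `β` is a counterclockwise parametrization of the boundary of `D`, injective on `[0,1)`, with `a`
at the parameter `0` and `b` at the parameter `1/2`. Counterclockwise: the winding number around a
point `z` of `D` is `1`, that is a continuous logarithm of `β - z` increases by `2πi`. -/
def IsParam (D : Set ℂ) (a b : ℂ) (β : ℝ → ℂ) : Prop :=
  IsSimpleClosed β ∧ frontier D = β '' Icc 0 1 ∧ β 0 = a ∧ β (1 / 2) = b ∧
    ∃ z ∈ D, ∃ θ : ℝ → ℂ, ContinuousOn θ (Icc 0 1) ∧
      (∀ t ∈ Icc (0 : ℝ) 1, Complex.exp (θ t) = β t - z) ∧ θ 1 - θ 0 = 2 * Real.pi * Complex.I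

/-- The discrete domains `(D_n; a_n, b_n)` converge to the marked domain with the boundary
parametrization `β`: the meshes tend to `0`, and so does `sup_t |β_n t - β t|`. -/
def Approximates (Dn : ℕ → Discrete) (β : ℝ → ℂ) : Prop :=
  Tendsto (fun n => (Dn n).δ) atTop (𝓝 0) ∧
    TendstoUniformlyOn (fun n => (Dn n).β) β atTop (Icc 0 1)

/-- `ψ` is a conformal map from the upper half-plane onto `D`, extended continuously to the boundary,
which takes `0` to `a` and `∞` to `b`. -/
def IsUniformizer (D : Set ℂ) (a b : ℂ) (ψ : ℂ → ℂ) : Prop :=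
  DifferentiableOn ℂ ψ {z | 0 < z.im} ∧ InjOn ψ {z | 0 < z.im} ∧
    ψ '' {z | 0 < z.im} = D ∧ ContinuousOn ψ {z | 0 ≤ z.im} ∧
    ψ 0 = a ∧ Tendsto ψ (Bornology.cobounded ℂ ⊓ 𝓟 {z | 0 ≤ z.im}) (𝓝 b)

/-- `G` is the curve of chordal `SLE` in `(D; a, b)`: almost surely it starts at `a`, ends at `b` and
is the image under `ψ` of the trace `γ` in the upper half-plane, with the time `s ∈ [0, ∞)`
reparametrized onto `[0,1)` by `t = s / (1 + s)`. -/
def IsSLEIn {Ω : Type*} [MeasurableSpace Ω] (P : Measure Ω) (γ : Ω → ℝ → ℂ) (a b : ℂ)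
    (ψ : ℂ → ℂ) (G : Ω → C(unitInterval, ℂ)) : Prop :=
  ∀ᵐ ω ∂P, G ω 0 = a ∧ G ω 1 = b ∧
    ∀ t : unitInterval, (t : ℝ) < 1 → G ω t = ψ (γ ω (t / (1 - t)))

/-- Convergence without sequences, for the boundary parametrization `β`: for every bounded
`d`-continuous `F` and every `ε > 0` there is `r > 0` such that for every discrete domain of mesh
less than `r` whose boundary is at distance less than `r` (in the given parametrizations) the
interface is unique and the expectations differ by less than `ε`. -/
def ConvergesUniformly (q : ℝ) (β : ℝ → ℂ) {Ω : Type*} [MeasurableSpace Ω] (P : Measure Ω)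
    (G : Ω → C(unitInterval, ℂ)) : Prop :=
  ∀ F, BoundedContinuous F → ∀ ε > 0, ∃ r > 0, ∀ D' : Discrete, D'.δ < r →
    (∀ t ∈ Icc (0 : ℝ) 1, ‖D'.β t - β t‖ < r) →
    (∀ A ⊆ D'.E, ∃! η, IsInterface D' A η) ∧
      ∀ η : Finset (Sym2 (ℤ × ℤ)) → C(unitInterval, ℂ), (∀ A ⊆ D'.E, IsInterface D' A (η A)) →
        |mean q D' (fun A => F (η A)) - ∫ ω, F (G ω) ∂P| < ε

/-- The statement of Q1 for the parameter `q`. Chordal `SLE_κ(q)` exists. For every chordal
`SLE_κ(q)` trace `γ` in the upper half-plane, on any probability space, every bounded Jordan domain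
`D` with distinct boundary points `a`, `b` and every conformal map `ψ` from the upper half-plane onto
`(D; a, b)` (such maps exist), the image of the trace is almost surely a curve `G` in `[0,1]`, and
for every counterclockwise parametrization `β` of the boundary from `a` through `b` and all
approximations `(D_n; a_n, b_n)` the interfaces converge in law to `G` in the metric `d`; the same
without sequences. -/
def Question (q : ℝ) : Prop :=
  (∃ (Ω : Type) (_ : MeasurableSpace Ω) (P : Measure Ω) (_ : IsProbabilityMeasure P)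
    (γ : Ω → ℝ → ℂ), IsSLE (kappa q) P γ) ∧
  ∀ (Ω : Type u) [MeasurableSpace Ω] (P : Measure Ω) [IsProbabilityMeasure P] (γ : Ω → ℝ → ℂ),
    IsSLE (kappa q) P γ → ∀ D, IsJordanDomain D → ∀ a ∈ frontier D, ∀ b ∈ frontier D, a ≠ b →
    (∃ ψ, IsUniformizer D a b ψ) ∧
    ∀ ψ, IsUniformizer D a b ψ → (∃ G, IsSLEIn P γ a b ψ G) ∧ ∀ G, IsSLEIn P γ a b ψ G →
      (∀ F, BoundedContinuous F → AEMeasurable (fun ω => F (G ω)) P) ∧
      ∀ β, IsParam D a b β →
        (∀ Dn : ℕ → Discrete, Approximates Dn β → ConvergesInLaw q Dn P G) ∧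
        ConvergesUniformly q β P G

/-- The marked domain `(D; a, b)` has counterclockwise boundary parametrizations, and for each of
them approximations `(D_n; a_n, b_n)` with any given meshes tending to `0`. -/
def HasApproximations (D : Set ℂ) (a b : ℂ) : Prop :=
  (∃ β, IsParam D a b β) ∧ ∀ β, IsParam D a b β →
    ∀ δ : ℕ → ℝ, (∀ n, 0 < δ n) → Tendsto δ atTop (𝓝 0) →
      ∃ Dn : ℕ → Discrete, (∀ n, (Dn n).δ = δ n) ∧ Approximates Dn β

end Vale.Agent.P167Z
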